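import Vale.Agent.P211.Statement.Defs

/-!
# P211, module C: Poincaré's inequality in mean on a ball of `ℝ⁴`
-/

open MeasureTheory Metric Set
open scoped ENNReal ContDiff

namespace Vale.Agent.P211.Poincare

noncomputable section

theorem lintegral_comp_affine {G : Euc4 → ℝ≥0∞} (hG : Measurable G) {s : ℝ} (hs : s ≠ 0)
    (a : Euc4) :
    ∫⁻ y, G (s • y + a) = ENNReal.ofReal |(s ^ 4)⁻¹| * ∫⁻ y, G y := by
  have h := lintegral_map (μ := (volume : Measure Euc4))
    (hG.comp (measurable_id.add_const a)) (measurable_const_smul s)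
  rw [Measure.map_addHaar_smul _ hs, lintegral_smul_measure, finrank_euclideanSpace_fin] at h
  simp only [Function.comp_apply, id_eq, smul_eq_mul] at h
  rw [← h, lintegral_add_right_eq_self (μ := (volume : Measure Euc4)) (fun z => G z) a]

/-- The first half of the segment from `y` to `z`. -/
def halfSeg (g : Euc4 → ℝ) (y z : Euc4) : ℝ≥0∞ :=
  ∫⁻ t in Icc (0 : ℝ) (1 / 2), ENNReal.ofReal (g ((1 - t) • y + t • z))

theorem measurable_halfSeg {g : Euc4 → ℝ} (hg : Continuous g) :
    Measurable fun p : Euc4 × Euc4 => halfSeg g p.1 p.2 := by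
  refine Measurable.lintegral_prod_right' (f := fun q : (Euc4 × Euc4) × ℝ =>
    ENNReal.ofReal (g ((1 - q.2) • q.1.1 + q.2 • q.1.2))) ?_
  exact (hg.comp (by fun_prop)).measurable.ennreal_ofReal

theorem lintegral_halfSeg_le {g : Euc4 → ℝ} (hg : Continuous g) (B : Set Euc4) :
    ∫⁻ z in B, ∫⁻ y in B, halfSeg g y z ≤ 16 * volume B * ∫⁻ y, ENNReal.ofReal (g y) := by
  have hbound : ∀ z, ∫⁻ y in B, halfSeg g y z ≤ 16 * ∫⁻ y, ENNReal.ofReal (g y) := by
    intro z
    refine (setLIntegral_le_lintegral _ _).trans ?_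
    unfold halfSeg
    rw [lintegral_lintegral_swap]
    · calc ∫⁻ t in Icc (0 : ℝ) (1 / 2), ∫⁻ y, ENNReal.ofReal (g ((1 - t) • y + t • z))
          ≤ ∫⁻ _t in Icc (0 : ℝ) (1 / 2), 16 * ∫⁻ y, ENNReal.ofReal (g y) := by
            refine setLIntegral_mono measurable_const fun t ht => ?_
            have h1 : (1 / 2 : ℝ) ≤ 1 - t := by linarith [ht.2]
            rw [lintegral_comp_affine (G := fun y => ENNReal.ofReal (g y))
              hg.measurable.ennreal_ofReal (by linarith) (t • z)]
            gcongr
            rw [show (16 : ℝ≥0∞) = ENNReal.ofReal 16 by simp]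
            refine ENNReal.ofReal_le_ofReal ?_
            rw [abs_of_nonneg (by positivity),
              inv_le_comm₀ (pow_pos (by linarith) 4) (by norm_num)]
            calc (16 : ℝ)⁻¹ = (1 / 2) ^ 4 := by norm_num
              _ ≤ (1 - t) ^ 4 := by gcongr
        _ ≤ 16 * ∫⁻ y, ENNReal.ofReal (g y) := by
            rw [setLIntegral_const, Real.volume_Icc]
            refine mul_le_of_le_one_right' ?_
            rw [show (1 : ℝ≥0∞) = ENNReal.ofReal 1 by simp]
            exact ENNReal.ofReal_le_ofReal (by norm_num)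
    · exact (hg.comp (by fun_prop : Continuous fun q : Euc4 × ℝ =>
        (1 - q.2) • q.1 + q.2 • z)).measurable.ennreal_ofReal.aemeasurable
  calc ∫⁻ z in B, ∫⁻ y in B, halfSeg g y z
      ≤ ∫⁻ _z in B, 16 * ∫⁻ y, ENNReal.ofReal (g y) := setLIntegral_mono measurable_const
        fun z _ => hbound z
    _ = 16 * volume B * ∫⁻ y, ENNReal.ofReal (g y) := by
        rw [setLIntegral_const]; ring

/-- The oscillation on a ball is controlled by the differential. -/
theorem lintegral_abs_sub_le {u : Euc4 → ℝ} {U : Set Euc4} (hU : IsOpen U)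
    (hu : ContDiffOn ℝ 1 u U) {c : Euc4} {r : ℝ} (hr : closedBall c r ⊆ U) {g : Euc4 → ℝ}
    (hg : Continuous g) (hg0 : ∀ y, 0 ≤ g y)
    (hgu : ∀ y ∈ closedBall c r, ‖fderiv ℝ u y‖ ≤ g y) :
    ∫⁻ y in closedBall c r, ∫⁻ z in closedBall c r, ENNReal.ofReal |u y - u z| ≤
      ENNReal.ofReal (2 * r) * (32 * volume (closedBall c r)) * ∫⁻ y, ENNReal.ofReal (g y) := by
  set B := closedBall c r with hB
  have hpt : ∀ y ∈ B, ∀ z ∈ B,
      ENNReal.ofReal |u y - u z| ≤ ENNReal.ofReal (2 * r) * (halfSeg g y z + halfSeg g z y) := by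
    intro y hy z hz
    have hr0 : 0 ≤ r := dist_nonneg.trans (mem_closedBall.1 hy)
    have hseg : ∀ t ∈ uIcc (0 : ℝ) 1, (1 - t) • y + t • z ∈ B := fun t ht => by
      rw [uIcc_of_le zero_le_one] at ht
      exact (convex_closedBall c r) hy hz (by linarith [ht.2]) ht.1 (by ring)
    set f' : ℝ → ℝ := fun t => fderiv ℝ u ((1 - t) • y + t • z) (z - y) with hf'
    have hder : ∀ t ∈ uIcc (0 : ℝ) 1,
        HasDerivAt (fun s => u ((1 - s) • y + s • z)) (f' t) t := by
      intro t ht
      have h1 : HasDerivAt (fun s : ℝ => (1 - s) • y + s • z) (z - y) t := by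
        have := (((hasDerivAt_id t).const_sub 1).smul_const y).fun_add
          ((hasDerivAt_id t).smul_const z)
        simpa [sub_eq_neg_add] using this
      exact (((hu.contDiffAt (hU.mem_nhds (hr (hseg t ht)))).differentiableAt
        one_ne_zero).hasFDerivAt).comp_hasDerivAt t h1
    have hline : Continuous fun t : ℝ => (1 - t) • y + t • z := by fun_prop
    have hc : ContinuousOn f' (uIcc (0 : ℝ) 1) :=
      ((hu.continuousOn_fderiv_of_isOpen hU le_rfl).comp hline.continuousOn
        fun t ht => hr (hseg t ht)).clm_apply continuousOn_const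
    have hint := intervalIntegral.integral_eq_sub_of_hasDerivAt hder hc.intervalIntegrable
    simp only [sub_zero, one_smul, zero_smul, add_zero, sub_self, zero_add] at hint
    have hgc : Continuous fun t : ℝ => g ((1 - t) • y + t • z) := hg.comp hline
    have hle : |u y - u z| ≤ 2 * r * ∫ t in (0 : ℝ)..1, g ((1 - t) • y + t • z) := by
      rw [abs_sub_comm, ← hint, ← Real.norm_eq_abs, ← intervalIntegral.integral_const_mul]
      refine (intervalIntegral.norm_integral_le_integral_norm zero_le_one).trans
        (intervalIntegral.integral_mono_on zero_le_one hc.norm.intervalIntegrable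
          ((continuous_const.mul hgc).intervalIntegrable _ _) fun t ht => ?_)
      refine ((fderiv ℝ u _).le_opNorm _).trans ?_
      rw [mul_comm]
      refine mul_le_mul ?_ (hgu _ (hseg t (by rwa [uIcc_of_le zero_le_one]))) (norm_nonneg _)
        (by linarith)
      calc ‖z - y‖ = dist z y := (dist_eq_norm _ _).symm
        _ ≤ dist z c + dist c y := dist_triangle _ _ _
        _ ≤ 2 * r := by
            rw [dist_comm c y]
            linarith [mem_closedBall.1 hy, mem_closedBall.1 hz]
    have hsplit := intervalIntegral.integral_add_adjacent_intervals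
      (hgc.intervalIntegrable (μ := volume) 0 (1 / 2)) (hgc.intervalIntegrable (1 / 2) 1)
    have hflip : ∫ t in (1 / 2 : ℝ)..1, g ((1 - t) • y + t • z)
        = ∫ t in (0 : ℝ)..(1 / 2), g ((1 - t) • z + t • y) := by
      have h := intervalIntegral.integral_comp_sub_left
        (fun t => g ((1 - t) • z + t • y)) (a := (1 / 2 : ℝ)) (b := 1) 1
      norm_num at h
      rw [← h]
      refine intervalIntegral.integral_congr fun t _ => ?_
      beta_reduce
      rw [add_comm]
    have hhalf : ∀ a b : Euc4, ENNReal.ofReal (∫ t in (0 : ℝ)..(1 / 2), g ((1 - t) • a + t • b))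
        = halfSeg g a b := fun a b => by
      have hab : Continuous fun t : ℝ => g ((1 - t) • a + t • b) := hg.comp (by fun_prop)
      rw [intervalIntegral.integral_of_le (by norm_num), ← integral_Icc_eq_integral_Ioc,
        ofReal_integral_eq_lintegral_ofReal hab.integrableOn_Icc
          (Filter.Eventually.of_forall fun t => hg0 _)]
      rfl
    rw [← hsplit, hflip] at hle
    refine (ENNReal.ofReal_le_ofReal hle).trans ?_
    rw [ENNReal.ofReal_mul (by positivity)]
    gcongr
    refine ENNReal.ofReal_add_le.trans ?_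
    rw [hhalf, hhalf]
  have hm := measurable_halfSeg hg
  have hswap : ∫⁻ y in B, ∫⁻ z in B, halfSeg g y z = ∫⁻ z in B, ∫⁻ y in B, halfSeg g y z :=
    lintegral_lintegral_swap hm.aemeasurable
  calc ∫⁻ y in B, ∫⁻ z in B, ENNReal.ofReal |u y - u z|
      ≤ ∫⁻ y in B, ENNReal.ofReal (2 * r) *
          ((∫⁻ z in B, halfSeg g y z) + ∫⁻ z in B, halfSeg g z y) := by
        refine lintegral_mono_ae ((ae_restrict_iff' measurableSet_closedBall).2
          (Filter.Eventually.of_forall fun y hy => ?_))
        calc ∫⁻ z in B, ENNReal.ofReal |u y - u z|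
            ≤ ∫⁻ z in B, ENNReal.ofReal (2 * r) * (halfSeg g y z + halfSeg g z y) :=
              lintegral_mono_ae ((ae_restrict_iff' measurableSet_closedBall).2
                (Filter.Eventually.of_forall fun z hz => hpt y hy z hz))
          _ = _ := by
              rw [lintegral_const_mul' _ _ ENNReal.ofReal_ne_top,
                lintegral_add_left (f := fun z => halfSeg g y z) hm.of_uncurry_left]
    _ = ENNReal.ofReal (2 * r) *
          ((∫⁻ y in B, ∫⁻ z in B, halfSeg g y z) + ∫⁻ y in B, ∫⁻ z in B, halfSeg g z y) := by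
        rw [lintegral_const_mul' _ _ ENNReal.ofReal_ne_top,
          lintegral_add_left hm.lintegral_prod_right']
    _ ≤ ENNReal.ofReal (2 * r) * (16 * volume B * (∫⁻ y, ENNReal.ofReal (g y))
          + 16 * volume B * ∫⁻ y, ENNReal.ofReal (g y)) := by
        gcongr
        · rw [hswap]; exact lintegral_halfSeg_le hg B
        · exact lintegral_halfSeg_le hg B
    _ = _ := by ring

end

end Vale.Agent.P211.Poincare
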