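import Mathlib

/-!
# P211, module C: Poincaré's inequality in mean by chaining overlapping sets
-/

open MeasureTheory Set
open scoped ENNReal

namespace Vale.Agent.P211.Poincare

noncomputable section

variable {X : Type*} [MeasurableSpace X] {μ : Measure X}

/-- The oscillation of every admissible function on `A` is controlled by its energy. -/
def Osc (μ : Measure X) (S : (X → ℝ) → Prop) (E : (X → ℝ) → ℝ≥0∞) (A : Set X) : Prop :=
  ∃ C : ℝ≥0∞, C ≠ ∞ ∧ ∀ u, S u →
    ∫⁻ x in A, ∫⁻ y in A, ENNReal.ofReal |u x - u y| ∂μ ∂μ ≤ C * E u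

theorem mul_cross_le [IsFiniteMeasure μ] (u : X → ℝ) (hu : Measurable u) (A B : Set X) :
    μ (A ∩ B) * ∫⁻ x in A, ∫⁻ y in B, ENNReal.ofReal |u x - u y| ∂μ ∂μ ≤
      μ B * (∫⁻ x in A, ∫⁻ z in A, ENNReal.ofReal |u x - u z| ∂μ ∂μ)
        + μ A * ∫⁻ y in B, ∫⁻ z in B, ENNReal.ofReal |u y - u z| ∂μ ∂μ := by
  set f : X → X → ℝ≥0∞ := fun x y => ENNReal.ofReal |u x - u y| with hf
  have hm : ∀ x, Measurable fun z => f x z := fun x =>
    ((measurable_const.sub hu).abs).ennreal_ofReal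
  have hp : Measurable fun p : X × X => f p.1 p.2 :=
    (((hu.comp measurable_fst).sub (hu.comp measurable_snd)).abs).ennreal_ofReal
  have hpt : ∀ x y, μ (A ∩ B) * f x y ≤ (∫⁻ z in A, f x z ∂μ) + ∫⁻ z in B, f y z ∂μ := by
    intro x y
    calc μ (A ∩ B) * f x y = ∫⁻ _z in A ∩ B, f x y ∂μ := by rw [setLIntegral_const, mul_comm]
      _ ≤ ∫⁻ z in A ∩ B, (f x z + f y z) ∂μ := by
          refine lintegral_mono fun z => ?_
          refine (ENNReal.ofReal_le_ofReal ?_).trans ENNReal.ofReal_add_le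
          calc |u x - u y| ≤ |u x - u z| + |u z - u y| := abs_sub_le _ _ _
            _ = |u x - u z| + |u y - u z| := by rw [abs_sub_comm (u z)]
      _ = (∫⁻ z in A ∩ B, f x z ∂μ) + ∫⁻ z in A ∩ B, f y z ∂μ := lintegral_add_left (hm x) _
      _ ≤ _ := add_le_add (lintegral_mono_set inter_subset_left)
          (lintegral_mono_set inter_subset_right)
  calc μ (A ∩ B) * ∫⁻ x in A, ∫⁻ y in B, f x y ∂μ ∂μ
      ≤ ∫⁻ x in A, μ (A ∩ B) * ∫⁻ y in B, f x y ∂μ ∂μ := lintegral_const_mul_le _ _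
    _ ≤ ∫⁻ x in A, (μ B * (∫⁻ z in A, f x z ∂μ) + ∫⁻ y in B, ∫⁻ z in B, f y z ∂μ ∂μ) ∂μ := by
        refine lintegral_mono fun x => (lintegral_const_mul_le _ _).trans ?_
        refine (lintegral_mono (μ := μ.restrict B) fun y => hpt x y).trans_eq ?_
        rw [lintegral_add_left measurable_const, setLIntegral_const, mul_comm]
    _ = _ := by
        rw [lintegral_add_right _ measurable_const, setLIntegral_const,
          lintegral_const_mul _ ?_, mul_comm (μ A)]
        exact hp.lintegral_prod_right'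

variable {S : (X → ℝ) → Prop} {E : (X → ℝ) → ℝ≥0∞} (hS : ∀ u, S u → Measurable u)
include hS

/-- Two overlapping sets. -/
theorem Osc.union [IsFiniteMeasure μ] {A B : Set X} (hA : Osc μ S E A) (hB : Osc μ S E B)
    (hAB : μ (A ∩ B) ≠ 0) : Osc μ S E (A ∪ B) := by
  obtain ⟨CA, hCA, hA⟩ := hA
  obtain ⟨CB, hCB, hB⟩ := hB
  set m := μ (A ∩ B) with hm
  set K := (μ B * CA + μ A * CB) / m with hK
  have hKt : K ≠ ∞ := ENNReal.div_ne_top (by
    simp [ENNReal.mul_ne_top, hCA, hCB, measure_ne_top]) hAB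
  refine ⟨CA + K + (K + CB), by simp [hCA, hCB, hKt], fun u hu => ?_⟩
  set f : X → X → ℝ≥0∞ := fun x y => ENNReal.ofReal |u x - u y| with hf
  have hm' := hS u hu
  have hdiv : ∀ {J : ℝ≥0∞}, m * J ≤ (μ B * CA + μ A * CB) * E u → J ≤ K * E u := by
    intro J hJ
    rw [hK, ← ENNReal.mul_div_right_comm, ENNReal.le_div_iff_mul_le (Or.inl hAB)
      (Or.inl (measure_ne_top _ _)), mul_comm]
    exact hJ
  have hab : ∫⁻ x in A, ∫⁻ y in B, f x y ∂μ ∂μ ≤ K * E u := hdiv <| by
    refine (mul_cross_le u hm' A B).trans ?_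
    rw [add_mul, mul_assoc, mul_assoc]
    exact add_le_add (mul_le_mul_right (hA u hu) _) (mul_le_mul_right (hB u hu) _)
  have hba : ∫⁻ x in B, ∫⁻ y in A, f x y ∂μ ∂μ ≤ K * E u := hdiv <| by
    rw [hm, inter_comm]
    refine (mul_cross_le u hm' B A).trans ?_
    rw [add_comm (μ A * _), add_mul, mul_assoc, mul_assoc]
    exact add_le_add (mul_le_mul_right (hA u hu) _) (mul_le_mul_right (hB u hu) _)
  have hle : ∀ x, ∫⁻ y in A ∪ B, f x y ∂μ ≤ (∫⁻ y in A, f x y ∂μ) + ∫⁻ y in B, f x y ∂μ :=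
    fun x => lintegral_union_le _ _ _
  have hmA : Measurable fun x => ∫⁻ y in A, f x y ∂μ :=
    (((hm'.comp measurable_fst).sub (hm'.comp measurable_snd)).abs.ennreal_ofReal).lintegral_prod_right'
  calc ∫⁻ x in A ∪ B, ∫⁻ y in A ∪ B, f x y ∂μ ∂μ
      ≤ ∫⁻ x in A ∪ B, ((∫⁻ y in A, f x y ∂μ) + ∫⁻ y in B, f x y ∂μ) ∂μ :=
        lintegral_mono fun x => hle x
    _ ≤ (∫⁻ x in A, ((∫⁻ y in A, f x y ∂μ) + ∫⁻ y in B, f x y ∂μ) ∂μ)
          + ∫⁻ x in B, ((∫⁻ y in A, f x y ∂μ) + ∫⁻ y in B, f x y ∂μ) ∂μ :=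
        lintegral_union_le _ _ _
    _ ≤ (CA * E u + K * E u) + (K * E u + CB * E u) := by
        rw [lintegral_add_left hmA, lintegral_add_left hmA]
        exact add_le_add (add_le_add (hA u hu) hab) (add_le_add hba (hB u hu))
    _ = _ := by simp only [add_mul]

variable [TopologicalSpace X] [CompactSpace X] [PreconnectedSpace X]

/-- On a compact connected space the local inequalities give the global one. -/
theorem osc_univ [IsFiniteMeasure μ] [μ.IsOpenPosMeasure]
    (hloc : ∀ p, ∃ A, IsOpen A ∧ p ∈ A ∧ Osc μ S E A) : Osc μ S E univ := by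
  classical
  choose A hAo hpA hA using hloc
  obtain ⟨F, hF⟩ := (isCompact_univ (X := X)).elim_finite_subcover A hAo
    fun p _ => mem_iUnion.2 ⟨p, hpA p⟩
  have h0 : Osc μ S E (⋃ p ∈ (∅ : Finset X), A p) := ⟨0, by simp, fun u _ => by simp⟩
  set P : Finset (Finset X) := F.powerset.filter fun T => Osc μ S E (⋃ p ∈ T, A p) with hP
  obtain ⟨T, hT, hmax⟩ := P.exists_max_image Finset.card
    ⟨∅, Finset.mem_filter.2 ⟨Finset.mem_powerset.2 (Finset.empty_subset F), h0⟩⟩
  obtain ⟨hTF, hTosc⟩ := Finset.mem_filter.1 hT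
  rw [Finset.mem_powerset] at hTF
  by_cases huniv : (⋃ p ∈ T, A p) = univ
  · rwa [huniv] at hTosc
  exfalso
  set U := ⋃ p ∈ T, A p with hU
  set V := ⋃ p ∈ F \ T, A p with hV
  have hUo : IsOpen U := isOpen_biUnion fun p _ => hAo p
  have hVo : IsOpen V := isOpen_biUnion fun p _ => hAo p
  have hcov : univ ⊆ U ∪ V := fun x hx => by
    obtain ⟨p, hpF, hxp⟩ := mem_iUnion₂.1 (hF hx)
    by_cases hpT : p ∈ T
    · exact Or.inl (mem_iUnion₂.2 ⟨p, hpT, hxp⟩)
    · exact Or.inr (mem_iUnion₂.2 ⟨p, Finset.mem_sdiff.2 ⟨hpF, hpT⟩, hxp⟩)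
  have hext : ∀ q ∈ F \ T, Osc μ S E (U ∪ A q) → False := by
    intro q hq hosc
    rw [Finset.mem_sdiff] at hq
    have hins : insert q T ∈ P := by
      refine Finset.mem_filter.2 ⟨Finset.mem_powerset.2 (Finset.insert_subset hq.1 hTF), ?_⟩
      rwa [Finset.set_biUnion_insert, union_comm]
    have := hmax _ hins
    rw [Finset.card_insert_of_notMem hq.2] at this
    omega
  rcases T.eq_empty_or_nonempty with hT0 | ⟨p₀, hp₀⟩
  · rcases isEmpty_or_nonempty X with hX | ⟨⟨x⟩⟩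
    · exact huniv (Subsingleton.elim _ _)
    · obtain ⟨q, hqF, -⟩ := mem_iUnion₂.1 (hF (mem_univ x))
      exact hext q (by simp [hT0, hqF]) (by simpa [hU, hT0] using hA q)
  have hUne : U.Nonempty := ⟨p₀, mem_iUnion₂.2 ⟨p₀, hp₀, hpA p₀⟩⟩
  have hVne : V.Nonempty := by
    by_contra hV0
    rw [not_nonempty_iff_eq_empty] at hV0
    exact huniv (univ_subset_iff.1 (by simpa [hV0] using hcov))
  obtain ⟨x, -, hxU, hxV⟩ := isPreconnected_univ U V hUo hVo hcov
    (by simpa using hUne) (by simpa using hVne)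
  obtain ⟨q, hq, hxq⟩ := mem_iUnion₂.1 hxV
  exact hext q hq (Osc.union hS hTosc (hA q)
    ((hUo.inter (hAo q)).measure_pos μ ⟨x, hxU, hxq⟩).ne')

omit hS [PreconnectedSpace X] in
/-- From oscillation to deviation from the mean. -/
theorem mean_of_osc [IsFiniteMeasure μ] [BorelSpace X] (hSc : ∀ u, S u → Continuous u)
    {g : (X → ℝ) → X → ℝ} (hg : ∀ u, S u → Continuous (g u)) (hg0 : ∀ u x, 0 ≤ g u x)
    (hosc : Osc μ S (fun u => ∫⁻ x, ENNReal.ofReal (g u x) ∂μ) univ) :
    ∃ C : ℝ, ∀ {u}, S u →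
      ∫ x, |u x - (∫ y, u y ∂μ) / μ.real univ| ∂μ ≤ C * ∫ x, g u x ∂μ := by
  obtain ⟨C, hC, hosc⟩ := hosc
  have hint : ∀ {f : X → ℝ}, Continuous f → Integrable f μ := fun hf => by
    obtain ⟨M, hM⟩ := isCompact_univ.exists_bound_of_continuousOn hf.continuousOn
    exact Integrable.of_bound hf.aestronglyMeasurable M
      (Filter.Eventually.of_forall fun x => hM x (mem_univ x))
  refine ⟨C.toReal / μ.real univ, fun {u} hu => ?_⟩
  have hc := hSc u hu
  set V := μ.real univ with hV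
  rcases (show 0 ≤ V from ENNReal.toReal_nonneg).eq_or_lt with h0 | hpos
  · have hμ : μ = 0 := by
      rw [← Measure.measure_univ_eq_zero]
      exact (ENNReal.toReal_eq_zero_iff _).1 h0.symm |>.resolve_right (measure_ne_top _ _)
    simp [hμ]
  set D : X → ℝ := fun x => ∫ y, |u x - u y| ∂μ with hD
  have hDi : ∀ x, Integrable (fun y => |u x - u y|) μ := fun x => hint (continuous_const.sub hc).abs
  have hsi : ∀ s : ℝ, Integrable (fun y => |s - u y|) μ := fun s =>
    hint (continuous_const.sub hc).abs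
  have hL : LipschitzWith (⟨V, hpos.le⟩ : NNReal) fun s : ℝ => ∫ y, |s - u y| ∂μ := by
    refine LipschitzWith.of_dist_le_mul fun s t => ?_
    rw [Real.dist_eq, Real.dist_eq, ← integral_sub (hsi s) (hsi t)]
    refine abs_integral_le_integral_abs.trans ?_
    calc ∫ y, |(|s - u y| - |t - u y|)| ∂μ ≤ ∫ _y, |s - t| ∂μ :=
          integral_mono (hint (((continuous_const.sub hc).abs).sub
            ((continuous_const.sub hc).abs)).abs) (integrable_const _) fun y => by
            simpa using abs_abs_sub_abs_le_abs_sub (s - u y) (t - u y)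
      _ = V * |s - t| := by rw [integral_const, smul_eq_mul]
  have hDc : Continuous D := hL.continuous.comp hc
  have hDeq : ENNReal.ofReal (∫ x, D x ∂μ) =
      ∫⁻ x, ∫⁻ y, ENNReal.ofReal |u x - u y| ∂μ ∂μ := by
    rw [ofReal_integral_eq_lintegral_ofReal (hint hDc)
      (Filter.Eventually.of_forall fun x => integral_nonneg fun y => abs_nonneg _)]
    refine lintegral_congr fun x => ?_
    exact ofReal_integral_eq_lintegral_ofReal (hDi x)
      (Filter.Eventually.of_forall fun y => abs_nonneg _)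
  have hle : ∫ x, D x ∂μ ≤ C.toReal * ∫ x, g u x ∂μ := by
    have h := hosc u hu
    simp only [Measure.restrict_univ] at h
    rw [← hDeq, ← ofReal_integral_eq_lintegral_ofReal (hint (hg u hu))
      (Filter.Eventually.of_forall fun x => hg0 u x), ← ENNReal.ofReal_toReal hC,
      ← ENNReal.ofReal_mul ENNReal.toReal_nonneg,
      ENNReal.ofReal_le_ofReal_iff (mul_nonneg ENNReal.toReal_nonneg
        (integral_nonneg fun x => hg0 u x))] at h
    exact h
  have hpt : ∀ x, |u x - (∫ y, u y ∂μ) / V| ≤ D x / V := fun x => by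
    have e : u x - (∫ y, u y ∂μ) / V = (∫ y, (u x - u y) ∂μ) / V := by
      rw [integral_sub (integrable_const _) (hint hc), integral_const, smul_eq_mul, ← hV]
      field_simp
    rw [e, abs_div, abs_of_pos hpos]
    gcongr
    exact abs_integral_le_integral_abs
  calc ∫ x, |u x - (∫ y, u y ∂μ) / V| ∂μ ≤ ∫ x, D x / V ∂μ :=
        integral_mono (hint (hc.sub continuous_const).abs) ((hint hDc).div_const V) hpt
    _ = (∫ x, D x ∂μ) / V := integral_div _ _
    _ ≤ (C.toReal * ∫ x, g u x ∂μ) / V := by gcongr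
    _ = _ := by ring

end

end Vale.Agent.P211.Poincare
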